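import Vale.Agent.P129B83.Sum
import Vale.Agent.P129BR.TreeDefs

/-!
# The signed averages for continuous functionals
-/

namespace Vale.Agent.P129B.Tre

universe v

variable {N : Type v} [ZM N]
  {R : Type*} [Field R] [LinearOrder R] [IsStrictOrderedRing R] [Coded N R] [RF N R]
  {K : Type*} [Field K] [Algebra R K] [Nm K R] [KA R K] [Coded N K] [KF N R K]
  {E : Type*} [AddCommGroup E] [Module K E] [Nm E R] [NA R K E] [Coded N E] [NS N R K E]

theorem tree_sum {f g : NN N → Dual N K E} [Intl N f] [Intl N g] (hg : Stb.Ad (ik f) g) :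
    TreeSum f g := fun _ _ _ _ _ hδ hp h1 h2 _ hQ n₀ =>
  Stb.tree_sum (fun (u : Dual N K E) (y : E) => u y) (by fun_prop) Dual.add_apply
    Dual.smul_apply hg hδ hp h1 h2 hQ.2 n₀

end Vale.Agent.P129B.Tre
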