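import Vale.Agent.P129BU.Kit
import Vale.Agent.P129BI.FP

/-!
# Averages over all sign patterns

One combination of far out members which is large at a point only if, for every sign pattern, a
member that reproduces the pattern is large there with the next sign.
-/

set_option linter.unusedSectionVars false

namespace Vale.Agent.P129B.Stb

universe v

variable {N : Type v} [ZM N]
  {R : Type*} [Field R] [LinearOrder R] [IsStrictOrderedRing R] [Coded N R] [RF N R]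
  {K : Type*} [Field K] [Algebra R K] [Nm K R] [KA R K] [Coded N K] [KF N R K]
  {F : Type*} [AddCommGroup F] [Module K F] [Nm F R] [NA R K F] [Coded N F] [NS N R K F]
  {E : Type*} [Coded N E] [Tot N E]

/-- The induction over the levels, with abstract predicates. -/
theorem tree_ind {Φ : Type*} [Coded N Φ] [Tot N Φ] (A : NN N → NN N → Φ → Prop)
    (B : NN N → E → Prop) (Q : (NN N → R) → NN N → Prop) (ρ : Φ → E → R) (σ : NN N → E → R)
    (hA : DefF N (fun p : NN N × NN N × Φ => A p.1 p.2.1 p.2.2))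
    (hB : DefF N (fun p : NN N × E => B p.1 p.2))
    (hQ : DefF N (fun p : (NN N → R) × NN N => Q p.1 p.2))
    (hρ : DefF N (fun p : Φ × E => ρ p.1 p.2)) (hσ : DefF N (fun p : NN N × E => σ p.1 p.2))
    (p : R) (k : NN N)
    (hBm : ∀ n n' y, n ≤ n' → B n y → B n' y)
    (hle : ∀ n M u y, A n M u → B n y → ρ u y ≤ p)
    (h0 : ∀ ε : NN N → R, Intl N ε → (∀ i, ε i = 1 ∨ ε i = -1) → ∀ n₀, ∃ u M n, n₀ ≤ M ∧
      A n₀ M u ∧ n₀ ≤ n ∧ (∀ y, ρ u y = ε k * σ n y) ∧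
        ∀ ε' : NN N → R, (∀ i, i ≤ k → ε' i = ε i) → Q ε' n)
    (hs : ∀ n M L u w, n ≤ M → M ≤ L → A n M u → A M L w →
      ∃ t, A n L t ∧ ∀ y, ρ t y = (ρ u y + ρ w y) / 2) (d : NN N) :
    ∀ ε : NN N → R, Intl N ε → (∀ i, ε i = 1 ∨ ε i = -1) → ∀ n₀, ∃ u M, n₀ ≤ M ∧ A n₀ M u ∧
      ∀ y, B n₀ y → ∀ ε' : NN N → R, Intl N ε' → (∀ i, ε' i = 1 ∨ ε' i = -1) →
        (∀ i, d ≤ i → i ≤ k → ε' i = ε i) →
        ∃ n, n₀ ≤ n ∧ Q ε' n ∧ p - ε' k * σ n y ≤ ipow 2 d * (p - ρ u y) := by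
  classical
  refine NN.ind (P := fun d => ∀ ε : NN N → R, Intl N ε → (∀ i, ε i = 1 ∨ ε i = -1) →
    ∀ n₀, ∃ u M, n₀ ≤ M ∧ A n₀ M u ∧
      ∀ y, B n₀ y → ∀ ε' : NN N → R, Intl N ε' → (∀ i, ε' i = 1 ∨ ε' i = -1) →
        (∀ i, d ≤ i → i ≤ k → ε' i = ε i) →
        ∃ n, n₀ ≤ n ∧ Q ε' n ∧ p - ε' k * σ n y ≤ ipow 2 d * (p - ρ u y)) ?_ ?_ ?_ d
  · fun_prop
  · intro ε hε hp n₀
    obtain ⟨u, M, n, h1, h2, h3, h4, h5⟩ := h0 ε hε hp n₀
    refine ⟨u, M, h1, h2, fun y _ ε' _ _ he => ⟨n, h3, h5 ε' fun i hi => he i zero_le hi, ?_⟩⟩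
    rw [ipow_zero, one_mul, h4, he k zero_le le_rfl]
  · intro d ih ε hε hp n₀
    have hc : ∀ c : R, c = 1 ∨ c = -1 → ∀ i, (if i = d then c else ε i) = 1 ∨
        (if i = d then c else ε i) = -1 := fun c hc i => by
      split_ifs
      · exact hc
      · exact hp i
    obtain ⟨u, M, h1, h2, h3⟩ := ih (fun i => if i = d then 1 else ε i)
      (DefF.toIntl (by fun_prop)) (hc 1 (Or.inl rfl)) n₀
    obtain ⟨w, L, k1, k2, k3⟩ := ih (fun i => if i = d then -1 else ε i)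
      (DefF.toIntl (by fun_prop)) (hc (-1) (Or.inr rfl)) M
    obtain ⟨t, l1, l2⟩ := hs n₀ M L u w h1 k1 h2 k2
    refine ⟨t, L, h1.trans k1, l1, fun y hy ε' hε' hp' he => ?_⟩
    have hy' := hBm _ _ _ h1 hy
    have e1 := hle _ _ _ _ h2 hy
    have e2 := hle _ _ _ _ k2 hy'
    have e3 : (0 : R) < ipow 2 d := ipow_pos two_pos d
    have e4 : ∀ c, ε' d = c → ∀ i, d ≤ i → i ≤ k → ε' i = if i = d then c else ε i := by
      intro c hc i hi hk
      split_ifs with h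
      · rw [h, hc]
      · exact he i (NN.add_one_le_iff.2 (lt_of_le_of_ne hi (Ne.symm h))) hk
    rw [ipow_succ, l2]
    rcases hp' d with h | h
    · obtain ⟨n, m1, m2, m3⟩ := h3 y hy ε' hε' hp' (e4 _ h)
      exact ⟨n, m1, m2, m3.trans (by nlinarith)⟩
    · obtain ⟨n, m1, m2, m3⟩ := k3 y hy' ε' hε' hp' (e4 _ h)
      exact ⟨n, h1.trans m1, m2, m3.trans (by nlinarith)⟩

omit [Coded N R] [RF N R] [Coded N K] [KF N R K] in
theorem nm_sub_sign_le {z : K} {δ p e a : R} (hδ : 0 < δ) (hp : 0 ≤ p) (he : e = 1 ∨ e = -1)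
    (h1 : |p - δ| ≤ δ / 32) (h2 : 2 * p * a ≤ (δ / 32) ^ 2) (hz : nm z ≤ p)
    (h3 : p - e * KA.re z ≤ a) : nm (z - algebraMap R K (δ * e)) ≤ δ / 16 := by
  have e1 : e * e = 1 := by rcases he with h | h <;> simp [h]
  have e2 : |e| = 1 := by rcases he with h | h <;> simp [h]
  have e3 := KA.nm_sq (z - algebraMap R K (p * e))
  rw [map_sub, map_sub, KA.re_ofR, KA.im_ofR, sub_zero] at e3
  have e4 := KA.nm_sq z
  have e5 : nm z ^ 2 ≤ p ^ 2 := pow_le_pow_left₀ (nm_nonneg z) hz 2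
  have e6 := mul_le_mul_of_nonneg_left h3 (show 0 ≤ 2 * p by linarith)
  have e7 : nm (z - algebraMap R K (p * e)) ≤ δ / 32 := by
    refine le_of_sq_le_sq ?_ (by positivity)
    have : (KA.re z - p * e) ^ 2 = KA.re z ^ 2 - 2 * p * (e * KA.re z) + p ^ 2 * (e * e) := by ring
    rw [e1] at this
    linarith
  refine (nm_triangle z (algebraMap R K (p * e)) _).trans ?_
  rw [← map_sub, KA.nm_ofR, ← sub_mul, abs_mul, e2, mul_one]
  linarith

/-- **The average over all patterns.** -/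
theorem tree_sum (ev : F → E → K) (hev : DefF N (fun p : F × E => ev p.1 p.2))
    (ev_add : ∀ u w y, ev (u + w) y = ev u y + ev w y)
    (ev_smul : ∀ (c : K) u y, ev (c • u) y = c * ev u y) {f g : NN N → F} [Intl N f] [Intl N g]
    (hg : Ad (fun n M u => IK K f n M (1 : R) u) g) {δ p m : R} (hδ : 0 < δ) (hp : 0 ≤ p)
    {k : NN N} (h1 : |p - δ| ≤ δ / 32) (h2 : 2 * p * (ipow 2 (k + 1) * (p - m)) ≤ (δ / 32) ^ 2)
    {x : NN N → E} [Intl N x]
    (hQ : ∀ ε : NN N → R, Intl N ε → (∀ i, ε i = 1 ∨ ε i = -1) → ∀ n₀, ∃ n, n₀ ≤ n ∧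
      ∀ i, i < k → nm (ev (g n) (x i) - algebraMap R K (δ * ε i)) ≤ δ / 16) (n₀ : NN N) :
    ∃ u, (∃ M, n₀ ≤ M ∧ IK K f n₀ M (1 : R) u) ∧ Dm (fun u y => nm (ev u y)) g n₀ u ∧
      ∀ y, (∀ j, n₀ ≤ j → nm (ev (g j) y) ≤ p) → m < KA.re (ev u y) →
        ∀ ε : NN N → R, Intl N ε → (∀ i, ε i = 1 ∨ ε i = -1) → ∃ n, n₀ ≤ n ∧
          (∀ i, i < k → nm (ev (g n) (x i) - algebraMap R K (δ * ε i)) ≤ δ / 16) ∧
          nm (ev (g n) y - algebraMap R K (δ * ε k)) ≤ δ / 16 := by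
  have hh : nm (algebraMap R K (1 / 2)) = 1 / 2 := KA.nm_ofR_of_nonneg (by norm_num)
  obtain ⟨u, M, k1, ⟨k2, k3⟩, k4⟩ := tree_ind (N := N)
    (fun n M u => IK K f n M (1 : R) u ∧ Dm (fun u y => nm (ev u y)) g n u)
    (fun n y => ∀ j, n ≤ j → nm (ev (g j) y) ≤ p)
    (fun ε n => ∀ i, i < k → nm (ev (g n) (x i) - algebraMap R K (δ * ε i)) ≤ δ / 16)
    (fun u y => KA.re (ev u y)) (fun n y => KA.re (ev (g n) y))
    (DefF.and (defF_ik (by fun_prop) (by fun_prop) (by fun_prop) (by fun_prop) (by fun_prop))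
      (defF_dm hev.nm (by fun_prop) (by fun_prop) (by fun_prop)))
    (by fun_prop) (by fun_prop) (by fun_prop) (by fun_prop) p k
    (fun n n' y hn h j hj => h j (hn.trans hj))
    (fun n M u y h hy => (KA.re_le_nm _).trans (h.2 y p hy))
    (fun ε hε hε' n₀ => by
      obtain ⟨n₁, hn₁⟩ := hg n₀
      obtain ⟨n, l1, l2⟩ := hQ ε hε hε' (max n₀ n₁)
      obtain ⟨M, l3, l4⟩ := hn₁ n ((le_max_right _ _).trans l1)
      have e : nm (algebraMap R K (ε k)) = 1 := by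
        rw [KA.nm_ofR]; rcases hε' k with h | h <;> simp [h]
      have l5 := l4.smul (algebraMap R K (ε k))
      rw [e, mul_one] at l5
      refine ⟨_, M, n, l3, ⟨l5, fun y r h => ?_⟩, (le_max_left _ _).trans l1, fun y => ?_,
        fun ε' h i hi => ?_⟩
      · show nm (ev _ y) ≤ r
        rw [ev_smul, KA.nm_mul, e, one_mul]
        exact h n ((le_max_left _ _).trans l1)
      · show KA.re (ev _ y) = _
        rw [ev_smul, KA.re_ofR_mul]
      · rw [h i hi.le]; exact l2 i hi)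
    (fun n M L u w l1 l2 hu hw => by
      have l5 := (hu.1.add hw.1 l1 l2).smul (algebraMap R K (1 / 2))
      rw [hh, show (1 / 2 : R) * (1 + 1) = 1 by norm_num] at l5
      refine ⟨_, ⟨l5, fun y r h => ?_⟩, fun y => ?_⟩
      · have e1 : nm (ev u y) ≤ r := hu.2 y r h
        have e2 : nm (ev w y) ≤ r := hw.2.mono l1 y r h
        have e3 := nm_add_le (ev u y) (ev w y)
        show nm (ev _ y) ≤ r
        rw [ev_smul, ev_add, KA.nm_mul, hh]
        linarith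
      · show KA.re (ev _ y) = _
        rw [ev_smul, ev_add, KA.re_ofR_mul, map_add]
        ring)
    (k + 1) (fun _ => 1) inferInstance (fun _ => Or.inl rfl) n₀
  refine ⟨u, ⟨M, k1, k2⟩, k3, fun y hy hm ε hε hε' => ?_⟩
  obtain ⟨n, l1, l2, l3⟩ := k4 y hy ε hε hε' fun i hi hk =>
    absurd (hi.trans hk) (not_le.2 (NN.lt_add_one k))
  refine ⟨n, l1, l2, nm_sub_sign_le hδ hp (hε' k) h1 h2 (hy n l1) (l3.trans ?_)⟩
  exact mul_le_mul_of_nonneg_left (by linarith) (ipow_pos two_pos _).le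

end Vale.Agent.P129B.Stb
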